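import Vale.Agent.P027.Red

/-!
Solvability over the rationals of finite systems of ring equations and comparisons of the heights
of two single unknowns is undecidable. The same holds for every relation that approximates the
comparison of heights up to a constant factor. If such a relation is Diophantine, solvability of
systems of ring equations over the rationals is undecidable.
-/

namespace Vale.Agent.Results.P027.HeightOne

open Vale.Agent.P027

theorem result :
    (¬ ComputablePred fun L : List (ℕ × ℕ × ℕ × ℕ) =>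
      ∃ x : ℕ → ℚ, ∀ c ∈ L, Holds (fun u v => Ht u ≤ Ht v) x c) ∧
    (∀ (B : ℚ → ℚ → Prop) (C : ℕ), (∀ u v, Ht u ≤ Ht v → B u v) →
      (∀ u v, B u v → Ht u ≤ C * Ht v) →
      ¬ ComputablePred fun L : List (ℕ × ℕ × ℕ × ℕ) => ∃ x : ℕ → ℚ, ∀ c ∈ L, Holds B x c) ∧
    ∀ (m : ℕ) (g : MvPolynomial (Fin 2 ⊕ Fin m) ℤ) (C : ℕ),
      (∀ u v : ℚ, Ht u ≤ Ht v →
        ∃ y : Fin m → ℚ, MvPolynomial.aeval (Sum.elim ![u, v] y) g = 0) →
      (∀ u v : ℚ, (∃ y : Fin m → ℚ, MvPolynomial.aeval (Sum.elim ![u, v] y) g = 0) →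
        Ht u ≤ C * Ht v) →
      ¬ ComputablePred fun L : List (ℕ × ℕ × ℕ × ℕ) =>
        ∃ x : ℕ → ℚ, ∀ c ∈ L, Holds (fun _ _ => True) x c :=
  ⟨undecidable kq_B (fun _ _ h => h) (c₀ := 1) fun _ _ h => h.trans_eq (one_mul _).symm,
    fun _ _ h h' => undecidable kq_B h h', fun _ g _ h h' => undecidable (kq_dioph g) h h'⟩

end Vale.Agent.Results.P027.HeightOne
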